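import Vale.Agent.P365.Inf.Wiener

set_option linter.all false

/-!
# P365 T1, chapter END (E1): Lebesgue points of a finite measure and its Borel transform

`dens μ` is the density of the absolutely continuous part of `μ`, `BT μ E ε = ∫ (t-(E+iε))⁻¹ dμ`.
For almost every `E`, as `ε → 0+`:
* `Im BT μ E ε → π dens μ E` (`ae_tendsto_im_BT`),
* `ε ∫ (t-(E+iε))⁻² dμ → 0` (`ae_tendsto_sq`),
* `BT μ E ε - BT μ E (M ε) → 0` for every fixed `M > 0` (`ae_tendsto_BT_sub`).
-/

namespace P365E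

open MeasureTheory Complex Filter Topology Metric P365L.Inf
open scoped ENNReal

/-- density of the absolutely continuous part -/
noncomputable def dens (μ : Measure ℝ) (t : ℝ) : ℝ := (μ.rnDeriv volume t).toReal

/-- the deviation of `μ` from `dens μ E dt` -/
noncomputable def dev (μ : Measure ℝ) (E : ℝ) : Measure ℝ :=
  volume.withDensity (fun t => ‖dens μ t - dens μ E‖ₑ) + μ.singularPart volume

theorem dens_nonneg (μ : Measure ℝ) (t : ℝ) : 0 ≤ dens μ t := ENNReal.toReal_nonneg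

theorem measurable_dens (μ : Measure ℝ) : Measurable (dens μ) :=
  (Measure.measurable_rnDeriv μ volume).ennreal_toReal

theorem measurable_devf (μ : Measure ℝ) (E : ℝ) :
    Measurable fun t => ‖dens μ t - dens μ E‖ₑ :=
  ((measurable_dens μ).sub_const _).enorm

theorem integrable_dens (μ : Measure ℝ) [IsFiniteMeasure μ] : Integrable (dens μ) :=
  integrable_toReal_of_lintegral_ne_top (Measure.measurable_rnDeriv μ volume).aemeasurable
    (Measure.lintegral_rnDeriv_lt_top μ volume).ne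

/-- Lebesgue points -/
theorem ae_tendsto_dev (μ : Measure ℝ) [IsFiniteMeasure μ] :
    ∀ᵐ E : ℝ, Tendsto (fun r => dev μ E (closedBall E r) / volume (closedBall E r))
      (𝓝[>] 0) (𝓝 0) := by
  have h1 := VitaliFamily.ae_tendsto_lintegral_enorm_sub_div
    (Besicovitch.vitaliFamily (volume : Measure ℝ)) (integrable_dens μ).locallyIntegrable
  have h2 := Besicovitch.ae_tendsto_rnDeriv (μ.singularPart volume) (volume : Measure ℝ)
  have h3 := Measure.rnDeriv_singularPart μ (volume : Measure ℝ)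
  filter_upwards [h1, h2, h3] with E e1 e2 e3
  have e4 := e1.comp (Besicovitch.tendsto_filterAt (volume : Measure ℝ) E)
  rw [e3] at e2
  have e5 := e4.add e2
  simp only [Pi.zero_apply, add_zero] at e5
  refine e5.congr fun r => ?_
  simp only [Function.comp_apply, dev, Measure.add_apply,
    withDensity_apply _ (measurableSet_closedBall (x := E) (ε := r))]
  rw [ENNReal.add_div]

/-- the Poisson kernel -/
noncomputable def PK (E ε t : ℝ) : ℝ := ε / ((t - E) ^ 2 + ε ^ 2)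

theorem PK_nonneg (E t : ℝ) {ε : ℝ} (hε : 0 < ε) : 0 ≤ PK E ε t := by
  unfold PK
  positivity

theorem measurable_PK (E ε : ℝ) : Measurable (PK E ε) := by
  unfold PK
  fun_prop

/-- dyadic decomposition -/
theorem PK_le_tsum (E t : ℝ) {ε : ℝ} (hε : 0 < ε) :
    ENNReal.ofReal (PK E ε t) ≤ ∑' k : ℕ, (closedBall E (2 ^ k * ε)).indicator
      (fun _ => ENNReal.ofReal (4 * (1 / 4) ^ k / ε)) t := by
  classical
  have hex : ∃ k : ℕ, |t - E| ≤ 2 ^ k * ε := by
    obtain ⟨k, hk⟩ := pow_unbounded_of_one_lt (|t - E| / ε) (one_lt_two)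
    exact ⟨k, ((div_lt_iff₀ hε).1 hk).le⟩
  set k := Nat.find hex with hk
  have h1 : |t - E| ≤ 2 ^ k * ε := Nat.find_spec hex
  refine le_trans ?_ (ENNReal.le_tsum k)
  rw [Set.indicator_of_mem (by rwa [mem_closedBall, Real.dist_eq])]
  refine ENNReal.ofReal_le_ofReal ?_
  unfold PK
  rcases Nat.eq_zero_or_pos k with h0 | h0
  · rw [h0, pow_zero, mul_one, div_le_div_iff₀ (by positivity) hε]
    nlinarith [sq_nonneg (t - E)]
  · obtain ⟨j, hj⟩ : ∃ j, k = j + 1 := ⟨k - 1, by omega⟩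
    have h2 : ¬ |t - E| ≤ 2 ^ j * ε := Nat.find_min hex (by omega)
    rw [not_le] at h2
    have h3 : (2 ^ j * ε) ^ 2 ≤ (t - E) ^ 2 := by
      rw [← sq_abs (t - E)]
      exact pow_le_pow_left₀ (by positivity) h2.le 2
    have h4 : ((2 : ℝ) ^ j) ^ 2 = 4 ^ j := by
      rw [← pow_mul, mul_comm, pow_mul]
      norm_num
    have h5 : (4 : ℝ) * (1 / 4) ^ k = ((4 : ℝ) ^ j)⁻¹ := by
      rw [hj, pow_succ, one_div, inv_pow]
      ring
    rw [h5, div_le_div_iff₀ (by positivity) hε]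
    rw [mul_pow, h4] at h3
    have h6 : (0 : ℝ) < 4 ^ j := by positivity
    have h7 : ((4 : ℝ) ^ j)⁻¹ * (4 ^ j * ε ^ 2) ≤ ((4 : ℝ) ^ j)⁻¹ * ((t - E) ^ 2 + ε ^ 2) :=
      mul_le_mul_of_nonneg_left (by nlinarith [sq_nonneg ε]) (by positivity)
    rw [← mul_assoc, inv_mul_cancel₀ h6.ne', one_mul] at h7
    linarith [sq ε]

theorem lintegral_PK_near (ρ : Measure ℝ) (E : ℝ) {δ r0 ε : ℝ} (hδ : 0 ≤ δ) (hr0 : 0 < r0)
    (hε : 0 < ε) (hρ : ∀ r, 0 < r → r ≤ r0 → ρ (closedBall E r) ≤ ENNReal.ofReal (δ * r)) :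
    ∫⁻ t in closedBall E r0, ENNReal.ofReal (PK E ε t) ∂ρ ≤ ENNReal.ofReal (8 * δ) := by
  have hm : ∀ k : ℕ, MeasurableSet (closedBall E (2 ^ k * ε)) := fun k =>
    measurableSet_closedBall
  calc ∫⁻ t in closedBall E r0, ENNReal.ofReal (PK E ε t) ∂ρ
      ≤ ∫⁻ t in closedBall E r0, ∑' k : ℕ, (closedBall E (2 ^ k * ε)).indicator
        (fun _ => ENNReal.ofReal (4 * (1 / 4) ^ k / ε)) t ∂ρ :=
        lintegral_mono fun t => PK_le_tsum E t hε
    _ = ∑' k : ℕ, ∫⁻ t in closedBall E r0, (closedBall E (2 ^ k * ε)).indicator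
        (fun _ => ENNReal.ofReal (4 * (1 / 4) ^ k / ε)) t ∂ρ :=
        lintegral_tsum fun k => (measurable_const.indicator (hm k)).aemeasurable
    _ ≤ ∑' k : ℕ, ENNReal.ofReal (4 * δ * (1 / 2) ^ k) := by
        refine ENNReal.tsum_le_tsum fun k => ?_
        rw [lintegral_indicator_const (hm k), Measure.restrict_apply (hm k)]
        have h1 : ρ (closedBall E (2 ^ k * ε) ∩ closedBall E r0) ≤
            ENNReal.ofReal (δ * (2 ^ k * ε)) := by
          rcases le_total (2 ^ k * ε) r0 with h | h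
          · exact (measure_mono Set.inter_subset_left).trans (hρ _ (by positivity) h)
          · refine (measure_mono Set.inter_subset_right).trans ((hρ _ hr0 le_rfl).trans ?_)
            exact ENNReal.ofReal_le_ofReal (mul_le_mul_of_nonneg_left h hδ)
        calc ENNReal.ofReal (4 * (1 / 4) ^ k / ε) * ρ (closedBall E (2 ^ k * ε) ∩ closedBall E r0)
            ≤ ENNReal.ofReal (4 * (1 / 4) ^ k / ε) * ENNReal.ofReal (δ * (2 ^ k * ε)) := by
              gcongr
          _ = ENNReal.ofReal (4 * δ * (1 / 2) ^ k) := by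
              rw [← ENNReal.ofReal_mul (by positivity)]
              congr 1
              have h2 : (1 / 4 : ℝ) ^ k * 2 ^ k = (1 / 2) ^ k := by
                rw [← mul_pow]
                norm_num
              rw [← h2]
              field_simp
    _ = ENNReal.ofReal (∑' k : ℕ, 4 * δ * (1 / 2) ^ k) := by
        rw [ENNReal.ofReal_tsum_of_nonneg (fun k => by positivity)
          (summable_geometric_two.mul_left _)]
    _ = ENNReal.ofReal (8 * δ) := by
        rw [tsum_mul_left, tsum_geometric_two]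
        congr 1
        ring

theorem lintegral_PK_far (ρ : Measure ℝ) (E : ℝ) {r0 ε : ℝ} (hr0 : 0 < r0) (hε : 0 < ε) :
    ∫⁻ t in (closedBall E r0)ᶜ, ENNReal.ofReal (PK E ε t) ∂ρ ≤
      ENNReal.ofReal (2 * ε / r0) * ∫⁻ t, ENNReal.ofReal (PK E r0 t) ∂ρ := by
  calc ∫⁻ t in (closedBall E r0)ᶜ, ENNReal.ofReal (PK E ε t) ∂ρ
      ≤ ∫⁻ t in (closedBall E r0)ᶜ, ENNReal.ofReal (2 * ε / r0) * ENNReal.ofReal (PK E r0 t) ∂ρ := by
        refine setLIntegral_mono' measurableSet_closedBall.compl fun t ht => ?_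
        rw [← ENNReal.ofReal_mul (by positivity)]
        refine ENNReal.ofReal_le_ofReal ?_
        rw [Set.mem_compl_iff, mem_closedBall, not_le, Real.dist_eq] at ht
        have h1 : r0 ^ 2 ≤ (t - E) ^ 2 := by
          rw [← sq_abs (t - E)]
          exact pow_le_pow_left₀ hr0.le ht.le 2
        unfold PK
        have h2 : 2 * ε / r0 * (r0 / ((t - E) ^ 2 + r0 ^ 2)) =
            2 * ε / ((t - E) ^ 2 + r0 ^ 2) := by
          field_simp
        rw [h2, div_le_div_iff₀ (by positivity) (by positivity)]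
        nlinarith [sq_nonneg ε]
    _ ≤ ∫⁻ t, ENNReal.ofReal (2 * ε / r0) * ENNReal.ofReal (PK E r0 t) ∂ρ :=
        setLIntegral_le_lintegral _ _
    _ = _ := lintegral_const_mul _ (measurable_PK E r0).ennreal_ofReal

theorem lintegral_PK_vol (E : ℝ) {ε : ℝ} (hε : 0 < ε) :
    ∫⁻ t : ℝ, ENNReal.ofReal (PK E ε t) = ENNReal.ofReal Real.pi := by
  rw [← P365L.lintegral_poisson_one E hε]
  refine lintegral_congr fun t => ?_
  unfold PK
  congr 2
  ring

theorem dev_le (μ : Measure ℝ) [IsFiniteMeasure μ] (E : ℝ) :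
    dev μ E ≤ μ + ENNReal.ofReal (dens μ E) • (volume : Measure ℝ) := by
  have h0 : volume.withDensity (fun t => ‖dens μ t - dens μ E‖ₑ) ≤
      volume.withDensity (μ.rnDeriv volume) + ENNReal.ofReal (dens μ E) • (volume : Measure ℝ) := by
    rw [← withDensity_const, ← withDensity_add_right _ measurable_const]
    refine withDensity_mono ?_
    filter_upwards [Measure.rnDeriv_lt_top μ (volume : Measure ℝ)] with t ht
    simp only [Pi.add_apply]
    calc ‖dens μ t - dens μ E‖ₑ ≤ ‖dens μ t‖ₑ + ‖dens μ E‖ₑ := enorm_sub_le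
      _ = μ.rnDeriv volume t + ENNReal.ofReal (dens μ E) := by
        rw [Real.enorm_of_nonneg (dens_nonneg μ t), Real.enorm_of_nonneg (dens_nonneg μ E)]
        congr 1
        exact ENNReal.ofReal_toReal ht.ne
  unfold dev
  calc volume.withDensity (fun t => ‖dens μ t - dens μ E‖ₑ) + μ.singularPart volume
      ≤ (volume.withDensity (μ.rnDeriv volume) + ENNReal.ofReal (dens μ E) • (volume : Measure ℝ)) +
        μ.singularPart volume := add_le_add_left h0 _
    _ = (volume.withDensity (μ.rnDeriv volume) + μ.singularPart volume) +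
        ENNReal.ofReal (dens μ E) • (volume : Measure ℝ) := by
        rw [add_right_comm]
    _ = _ := by rw [Measure.rnDeriv_add_singularPart]

theorem lintegral_PK_dev_lt_top (μ : Measure ℝ) [IsFiniteMeasure μ] (E : ℝ) {r0 : ℝ}
    (hr0 : 0 < r0) : ∫⁻ t, ENNReal.ofReal (PK E r0 t) ∂(dev μ E) < ∞ := by
  refine (lintegral_mono' (dev_le μ E) le_rfl).trans_lt ?_
  rw [lintegral_add_measure, lintegral_smul_measure, lintegral_PK_vol E hr0]
  refine ENNReal.add_lt_top.2 ⟨?_, ENNReal.mul_lt_top ENNReal.ofReal_lt_top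
    ENNReal.ofReal_lt_top⟩
  calc ∫⁻ t, ENNReal.ofReal (PK E r0 t) ∂μ ≤ ∫⁻ _t, ENNReal.ofReal (1 / r0) ∂μ := by
        refine lintegral_mono fun t => ENNReal.ofReal_le_ofReal ?_
        unfold PK
        rw [div_le_div_iff₀ (by positivity) hr0]
        nlinarith [sq_nonneg (t - E)]
    _ < ∞ := by
        rw [lintegral_const]
        exact ENNReal.mul_lt_top ENNReal.ofReal_lt_top (measure_lt_top μ _)

/-- the Poisson integral of the deviation vanishes at Lebesgue points -/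
theorem tendsto_lintegral_PK_dev (μ : Measure ℝ) [IsFiniteMeasure μ] {E : ℝ}
    (hE : Tendsto (fun r => dev μ E (closedBall E r) / volume (closedBall E r)) (𝓝[>] 0) (𝓝 0)) :
    Tendsto (fun ε => ∫⁻ t, ENNReal.ofReal (PK E ε t) ∂(dev μ E)) (𝓝[>] 0) (𝓝 0) := by
  rw [ENNReal.tendsto_nhds_zero]
  intro e he
  obtain ⟨η, hη, hηe⟩ : ∃ η : ℝ, 0 < η ∧ ENNReal.ofReal η ≤ e := by
    rcases eq_or_ne e ∞ with h | h
    · exact ⟨1, one_pos, by rw [h]; exact le_top⟩
    · exact ⟨e.toReal, ENNReal.toReal_pos he.ne' h, by rw [ENNReal.ofReal_toReal h]⟩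
  -- radius
  have h1 : ∀ᶠ r in 𝓝[>] (0 : ℝ), dev μ E (closedBall E r) ≤ ENNReal.ofReal (η / 16 * r) := by
    have h2 := (ENNReal.tendsto_nhds_zero.1 hE) (ENNReal.ofReal (η / 32))
      (ENNReal.ofReal_pos.2 (by positivity))
    filter_upwards [h2, self_mem_nhdsWithin] with r hr hr0
    have hr0' : (0 : ℝ) < r := hr0
    rw [Real.volume_closedBall, ENNReal.div_le_iff (by simpa using hr0') ENNReal.ofReal_ne_top] at hr
    refine hr.trans (le_of_eq ?_)
    rw [← ENNReal.ofReal_mul (by positivity)]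
    congr 1
    ring
  rw [eventually_nhdsWithin_iff, Metric.eventually_nhds_iff] at h1
  obtain ⟨d, hd, h1⟩ := h1
  set r0 := d / 2 with hr0
  have hr0' : 0 < r0 := by positivity
  have h2 : ∀ r, 0 < r → r ≤ r0 → dev μ E (closedBall E r) ≤ ENNReal.ofReal (η / 16 * r) := by
    intro r h3 h4
    refine h1 ?_ h3
    rw [Real.dist_eq, sub_zero, abs_of_pos h3]
    linarith
  set C := ∫⁻ t, ENNReal.ofReal (PK E r0 t) ∂(dev μ E) with hC
  have hCt : C < ∞ := lintegral_PK_dev_lt_top μ E hr0'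
  have h5 : Tendsto (fun ε : ℝ => ENNReal.ofReal (2 * ε / r0) * C) (𝓝[>] 0) (𝓝 0) := by
    have h6 : Tendsto (fun ε : ℝ => ENNReal.ofReal (2 * ε / r0)) (𝓝[>] 0) (𝓝 0) := by
      have h7 : Tendsto (fun ε : ℝ => 2 * ε / r0) (𝓝[>] 0) (𝓝 0) := by
        have : Continuous fun ε : ℝ => 2 * ε / r0 := by fun_prop
        have h8 := this.tendsto 0
        simp only [mul_zero, zero_div] at h8
        exact h8.mono_left nhdsWithin_le_nhds
      have h9 := ENNReal.tendsto_ofReal h7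
      rwa [ENNReal.ofReal_zero] at h9
    have h10 := ENNReal.Tendsto.mul_const h6 (Or.inr hCt.ne) (b := C)
    rwa [zero_mul] at h10
  have h11 := (ENNReal.tendsto_nhds_zero.1 h5) (ENNReal.ofReal (η / 2))
    (ENNReal.ofReal_pos.2 (by positivity))
  filter_upwards [h11, self_mem_nhdsWithin] with ε h12 hε
  have hε' : (0 : ℝ) < ε := hε
  rw [← lintegral_add_compl _ (measurableSet_closedBall (x := E) (ε := r0))]
  calc (∫⁻ t in closedBall E r0, ENNReal.ofReal (PK E ε t) ∂(dev μ E)) +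
        ∫⁻ t in (closedBall E r0)ᶜ, ENNReal.ofReal (PK E ε t) ∂(dev μ E)
      ≤ ENNReal.ofReal (8 * (η / 16)) + ENNReal.ofReal (η / 2) :=
        add_le_add (lintegral_PK_near _ E (by positivity) hr0' hε' h2)
          ((lintegral_PK_far _ E hr0' hε').trans h12)
    _ = ENNReal.ofReal η := by
        rw [← ENNReal.ofReal_add (by positivity) (by positivity)]
        congr 1
        ring
    _ ≤ e := hηe

/-- comparison of `μ` with `dens μ E dt` -/
theorem enorm_integral_sub_le {F : Type*} [NormedAddCommGroup F] [NormedSpace ℝ F]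
    (μ : Measure ℝ) [IsFiniteMeasure μ] (E : ℝ) (k : ℝ → F)
    (h1 : Integrable k μ) (h2 : Integrable k volume) :
    ‖∫ t, k t ∂μ - dens μ E • ∫ t, k t‖ₑ ≤ ∫⁻ t, ‖k t‖ₑ ∂(dev μ E) := by
  have hle1 : μ.singularPart volume ≤ μ := Measure.singularPart_le μ volume
  have hle2 : volume.withDensity (μ.rnDeriv volume) ≤ μ := Measure.withDensity_rnDeriv_le μ volume
  have hs : Integrable k (μ.singularPart volume) := h1.mono_measure hle1
  have hw : Integrable k (volume.withDensity (μ.rnDeriv volume)) := h1.mono_measure hle2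
  have hlt : ∀ᵐ t : ℝ, μ.rnDeriv volume t < ∞ := Measure.rnDeriv_lt_top μ (volume : Measure ℝ)
  have hw' : Integrable (fun t => dens μ t • k t) volume :=
    (integrable_withDensity_iff_integrable_smul' (Measure.measurable_rnDeriv μ volume) hlt).1 hw
  have e1 : ∫ t, k t ∂μ = ∫ t, k t ∂(μ.singularPart volume) + ∫ t, dens μ t • k t := by
    conv_lhs => rw [← Measure.singularPart_add_rnDeriv μ (volume : Measure ℝ)]
    rw [integral_add_measure hs hw, integral_withDensity_eq_integral_toReal_smul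
      (Measure.measurable_rnDeriv μ volume) hlt]
    rfl
  have e2 : ∫ t, k t ∂μ - dens μ E • ∫ t, k t =
      ∫ t, k t ∂(μ.singularPart volume) + ∫ t, (dens μ t - dens μ E) • k t := by
    have e3 : ∫ t, (dens μ t - dens μ E) • k t = (∫ t, dens μ t • k t) - dens μ E • ∫ t, k t := by
      have hh : Integrable (fun t => dens μ E • k t) volume := h2.smul _
      rw [← integral_smul, ← integral_sub hw' hh]
      refine integral_congr_ae (Eventually.of_forall fun t => ?_)
      exact sub_smul _ _ _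
    rw [e1, e3, add_sub_assoc]
  rw [e2]
  refine (enorm_add_le _ _).trans ?_
  rw [dev, lintegral_add_measure, add_comm (lintegral _ _)]
  refine add_le_add (enorm_integral_le_lintegral_enorm _) ?_
  refine (enorm_integral_le_lintegral_enorm _).trans (le_of_eq ?_)
  rw [lintegral_withDensity_eq_lintegral_mul₀' (measurable_devf μ E).aemeasurable]
  · refine lintegral_congr fun t => ?_
    rw [enorm_smul]
    rfl
  · have h4 : (volume.withDensity fun t => ‖dens μ t - dens μ E‖ₑ) ≪ volume :=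
      withDensity_absolutelyContinuous _ _
    exact (h2.aestronglyMeasurable.mono_ac h4).enorm


/-! ### the kernels -/

theorem z_im_pos (E : ℝ) {ε : ℝ} (hε : 0 < ε) : 0 < ((E : ℂ) + ε * I).im := by
  simpa using hε

theorem norm_sub_sq (E t ε : ℝ) : ‖(t : ℂ) - (E + ε * I)‖ ^ 2 = (t - E) ^ 2 + ε ^ 2 := by
  rw [P365L.cau_sq_norm]
  simp

theorem sub_ne (E t : ℝ) {ε : ℝ} (hε : 0 < ε) : (t : ℂ) - (E + ε * I) ≠ 0 :=
  P365L.cau_sub_ne (z_im_pos E hε) t

theorem inv_norm_sq (E t : ℝ) {ε : ℝ} (hε : 0 < ε) :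
    ε * (‖(t : ℂ) - (E + ε * I)‖⁻¹) ^ 2 = PK E ε t := by
  rw [inv_pow, norm_sub_sq]
  rfl

theorem integrable_BT (μ : Measure ℝ) [IsFiniteMeasure μ] (E : ℝ) {ε : ℝ} (hε : 0 < ε) :
    Integrable (fun t : ℝ => ((t : ℂ) - (E + ε * I))⁻¹) μ := by
  refine Integrable.of_bound (C := 1 / ε) (by fun_prop) (ae_of_all _ fun t => ?_)
  rw [norm_inv, one_div]
  refine inv_anti₀ hε ?_
  have h := P365L.cau_im_le (z_im_pos E hε) t
  simpa using h

/-- generic consequence: kernels with vanishing integral dominated by Poisson kernels -/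
theorem tendsto_of_kernel {F : Type*} [NormedAddCommGroup F] [NormedSpace ℝ F]
    (μ : Measure ℝ) [IsFiniteMeasure μ] {E : ℝ}
    (hE : Tendsto (fun r => dev μ E (closedBall E r) / volume (closedBall E r)) (𝓝[>] 0) (𝓝 0))
    (k : ℝ → ℝ → F) (c : F) {C M : ℝ} (hM : 0 < M)
    (h1 : ∀ ε, 0 < ε → Integrable (k ε) μ) (h2 : ∀ ε, 0 < ε → Integrable (k ε) volume)
    (h3 : ∀ ε, 0 < ε → ∫ t, k ε t = c)
    (h4 : ∀ ε, 0 < ε → ∀ t, ‖k ε t‖ ≤ C * (PK E ε t + PK E (M * ε) t)) :
    Tendsto (fun ε => ∫ t, k ε t ∂μ) (𝓝[>] 0) (𝓝 (dens μ E • c)) := by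
  rw [tendsto_iff_edist_tendsto_0]
  have h5 := tendsto_lintegral_PK_dev μ hE
  have h6 : Tendsto (fun ε : ℝ => M * ε) (𝓝[>] 0) (𝓝[>] 0) := by
    refine tendsto_nhdsWithin_iff.2 ⟨?_, ?_⟩
    · have : Continuous fun ε : ℝ => M * ε := by fun_prop
      have h8 := this.tendsto 0
      simp only [mul_zero] at h8
      exact h8.mono_left nhdsWithin_le_nhds
    · filter_upwards [self_mem_nhdsWithin] with ε hε
      exact mul_pos hM hε
  have h7 := ENNReal.Tendsto.const_mul (h5.add (h5.comp h6)) (Or.inr ENNReal.ofReal_ne_top)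
    (a := ENNReal.ofReal C)
  simp only [add_zero, mul_zero] at h7
  refine tendsto_of_tendsto_of_tendsto_of_le_of_le' tendsto_const_nhds h7
    (Eventually.of_forall fun _ => bot_le) ?_
  filter_upwards [self_mem_nhdsWithin] with ε hε
  have hε' : (0 : ℝ) < ε := hε
  rw [edist_eq_enorm_sub, ← h3 ε hε']
  refine (enorm_integral_sub_le μ E (k ε) (h1 ε hε') (h2 ε hε')).trans ?_
  simp only [Function.comp_apply]
  rw [← lintegral_add_left (measurable_PK E ε).ennreal_ofReal,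
    ← lintegral_const_mul _ (by
      exact (measurable_PK E ε).ennreal_ofReal.add (measurable_PK E (M * ε)).ennreal_ofReal)]
  refine lintegral_mono fun t => ?_
  rw [← ofReal_norm_eq_enorm]
  refine (ENNReal.ofReal_le_ofReal (h4 ε hε' t)).trans ?_
  rcases le_total 0 C with hC | hC
  · rw [ENNReal.ofReal_mul hC, ENNReal.ofReal_add (PK_nonneg E t hε')
      (PK_nonneg E t (mul_pos hM hε'))]
  · rw [ENNReal.ofReal_eq_zero.2 (mul_nonpos_of_nonpos_of_nonneg hC
      (add_nonneg (PK_nonneg E t hε') (PK_nonneg E t (mul_pos hM hε'))))]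
    exact bot_le

theorem integrable_PK (E : ℝ) {ε : ℝ} (hε : 0 < ε) : Integrable (PK E ε) := by
  refine ⟨(measurable_PK E ε).aestronglyMeasurable, ?_⟩
  rw [hasFiniteIntegral_iff_ofReal (ae_of_all _ fun t => PK_nonneg E t hε), lintegral_PK_vol E hε]
  exact ENNReal.ofReal_lt_top

theorem integral_PK (E : ℝ) {ε : ℝ} (hε : 0 < ε) : ∫ t, PK E ε t = Real.pi := by
  rw [integral_eq_lintegral_of_nonneg_ae (ae_of_all _ fun t => PK_nonneg E t hε)
    (measurable_PK E ε).aestronglyMeasurable, lintegral_PK_vol E hε,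
    ENNReal.toReal_ofReal Real.pi_pos.le]

/-- (E1a) -/
theorem tendsto_im_BT (μ : Measure ℝ) [IsFiniteMeasure μ] {E : ℝ}
    (hE : Tendsto (fun r => dev μ E (closedBall E r) / volume (closedBall E r)) (𝓝[>] 0) (𝓝 0)) :
    Tendsto (fun ε => (BT μ E ε).im) (𝓝[>] 0) (𝓝 (Real.pi * dens μ E)) := by
  have h := tendsto_of_kernel μ hE (fun ε => PK E ε) Real.pi (C := 1) one_pos
    (fun ε hε => P365L.poisson_integrable E hε) (fun ε hε => integrable_PK E hε)
    (fun ε hε => integral_PK E hε) (fun ε hε t => by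
      rw [Real.norm_of_nonneg (PK_nonneg E t hε), one_mul, one_mul]
      linarith [PK_nonneg E t hε])
  rw [smul_eq_mul, mul_comm] at h
  refine h.congr' ?_
  filter_upwards [self_mem_nhdsWithin] with ε hε
  exact (P365L.im_transform E hε).symm

/-- (E1b) -/
theorem tendsto_sq (μ : Measure ℝ) [IsFiniteMeasure μ] {E : ℝ}
    (hE : Tendsto (fun r => dev μ E (closedBall E r) / volume (closedBall E r)) (𝓝[>] 0) (𝓝 0)) :
    Tendsto (fun ε : ℝ => (ε : ℂ) * ∫ t : ℝ, (((t : ℂ) - (E + ε * I)) ^ 2)⁻¹ ∂μ)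
      (𝓝[>] 0) (𝓝 0) := by
  have key : ∀ ε : ℝ, 0 < ε → ∀ t : ℝ, ‖(ε : ℂ) * (((t : ℂ) - (E + ε * I)) ^ 2)⁻¹‖ = PK E ε t := by
    intro ε hε t
    rw [norm_mul, norm_inv, norm_pow, Complex.norm_real, Real.norm_of_nonneg hε.le, ← inv_pow,
      inv_norm_sq E t hε]
  have hmeas : ∀ ε : ℝ, Measurable fun t : ℝ => (ε : ℂ) * (((t : ℂ) - (E + ε * I)) ^ 2)⁻¹ := by
    intro ε
    fun_prop
  have h := tendsto_of_kernel μ hE
    (fun ε t => (ε : ℂ) * (((t : ℂ) - (E + ε * I)) ^ 2)⁻¹) 0 (C := 1) one_pos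
    (fun ε hε => (P365L.poisson_integrable (μ := μ) E hε).mono' (hmeas ε).aestronglyMeasurable
      (ae_of_all _ fun t => (key ε hε t).le))
    (fun ε hε => (integrable_PK E hε).mono' (hmeas ε).aestronglyMeasurable
      (ae_of_all _ fun t => (key ε hε t).le))
    (fun ε hε => by
      rw [integral_const_mul]
      have h1 := P365L.cau_integral_mul (z_im_pos E hε) (z_im_pos E hε)
      simp only [← sq] at h1
      rw [h1, mul_zero])
    (fun ε hε t => by
      rw [key ε hε t, one_mul, one_mul]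
      linarith [PK_nonneg E t hε])
  rw [smul_zero] at h
  refine h.congr fun ε => ?_
  rw [integral_const_mul]

/-- (E1c) -/
theorem tendsto_BT_sub (μ : Measure ℝ) [IsFiniteMeasure μ] {E : ℝ}
    (hE : Tendsto (fun r => dev μ E (closedBall E r) / volume (closedBall E r)) (𝓝[>] 0) (𝓝 0))
    {M : ℝ} (hM : 0 < M) :
    Tendsto (fun ε : ℝ => BT μ E ε - BT μ E (M * ε)) (𝓝[>] 0) (𝓝 0) := by
  have e0 : ∀ ε : ℝ, 0 < ε → ∀ t : ℝ,
      ((t : ℂ) - (E + ε * I))⁻¹ - ((t : ℂ) - (E + (M * ε : ℝ) * I))⁻¹ =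
      (((1 - M) * ε : ℝ) * I) *
        (((t : ℂ) - (E + ε * I)) * ((t : ℂ) - (E + (M * ε : ℝ) * I)))⁻¹ := by
    intro ε hε t
    have h1 := sub_ne E t hε
    have h2 := sub_ne E t (mul_pos hM hε)
    rw [inv_sub_inv h1 h2, div_eq_mul_inv]
    congr 1
    push_cast
    ring
  have key : ∀ ε : ℝ, 0 < ε → ∀ t : ℝ,
      ‖((t : ℂ) - (E + ε * I))⁻¹ - ((t : ℂ) - (E + (M * ε : ℝ) * I))⁻¹‖ ≤
      (|1 - M| * (1 + 1 / M)) * (PK E ε t + PK E (M * ε) t) := by
    intro ε hε t
    have hMε := mul_pos hM hε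
    have hn : ‖(((1 - M) * ε : ℝ) : ℂ)‖ = |1 - M| * ε := by
      rw [Complex.norm_real, Real.norm_eq_abs, abs_mul, abs_of_pos hε]
    have hn2 : ‖((t : ℂ) - (E + ε * I)) * ((t : ℂ) - (E + (M * ε : ℝ) * I))‖⁻¹ =
        ‖(t : ℂ) - (E + ε * I)‖⁻¹ * ‖(t : ℂ) - (E + (M * ε : ℝ) * I)‖⁻¹ := by
      rw [norm_mul, mul_inv]
    rw [e0 ε hε t, norm_mul, norm_mul, Complex.norm_I, mul_one, hn, norm_inv, hn2]
    have h1 := inv_norm_sq E t hε
    have h2 := inv_norm_sq E t hMε
    set a := ‖(t : ℂ) - (E + ε * I)‖⁻¹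
    set b := ‖(t : ℂ) - (E + (M * ε : ℝ) * I)‖⁻¹
    have h3 : ε * (a * b) ≤ (1 + 1 / M) * (PK E ε t + PK E (M * ε) t) := by
      rw [← h1, ← h2]
      have h4 : (1 + 1 / M) * (ε * a ^ 2 + M * ε * b ^ 2) - ε * (a * b) =
          ε * (a ^ 2 + b ^ 2 - a * b) + ε * (a ^ 2 / M + M * b ^ 2) := by
        field_simp
        ring
      have h5 : 0 ≤ a ^ 2 + b ^ 2 - a * b := by nlinarith [sq_nonneg (a - b), sq_nonneg (a + b)]
      have h6 : 0 ≤ ε * (a ^ 2 + b ^ 2 - a * b) := mul_nonneg hε.le h5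
      have h7 : 0 ≤ ε * (a ^ 2 / M + M * b ^ 2) := by positivity
      linarith
    calc |1 - M| * ε * (a * b) = |1 - M| * (ε * (a * b)) := by ring
      _ ≤ |1 - M| * ((1 + 1 / M) * (PK E ε t + PK E (M * ε) t)) :=
        mul_le_mul_of_nonneg_left h3 (abs_nonneg _)
      _ = _ := by ring
  have hmeas : ∀ ε : ℝ, Measurable fun t : ℝ =>
      ((t : ℂ) - (E + ε * I))⁻¹ - ((t : ℂ) - (E + (M * ε : ℝ) * I))⁻¹ := by
    intro ε
    fun_prop
  have h := tendsto_of_kernel μ hE
    (fun ε t => ((t : ℂ) - (E + ε * I))⁻¹ - ((t : ℂ) - (E + (M * ε : ℝ) * I))⁻¹) 0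
    (C := |1 - M| * (1 + 1 / M)) hM
    (fun ε hε => (integrable_BT μ E hε).sub (integrable_BT μ E (mul_pos hM hε)))
    (fun ε hε => (((integrable_PK E hε).add (integrable_PK E (mul_pos hM hε))).const_mul _).mono'
      (hmeas ε).aestronglyMeasurable (ae_of_all _ fun t => key ε hε t))
    (fun ε hε => by
      rw [integral_congr_ae (ae_of_all _ (e0 ε hε)), integral_const_mul,
        P365L.cau_integral_mul (z_im_pos E (mul_pos hM hε)) (z_im_pos E hε), mul_zero])
    (fun ε hε t => key ε hε t)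
  rw [smul_zero] at h
  refine h.congr' ?_
  filter_upwards [self_mem_nhdsWithin] with ε hε
  rw [integral_sub (integrable_BT μ E hε) (integrable_BT μ E (mul_pos hM hε))]
  rfl

/-! ### almost every energy -/

theorem ae_tendsto_im_BT (μ : Measure ℝ) [IsFiniteMeasure μ] :
    ∀ᵐ E : ℝ, Tendsto (fun ε => (BT μ E ε).im) (𝓝[>] 0) (𝓝 (Real.pi * dens μ E)) := by
  filter_upwards [ae_tendsto_dev μ] with E hE using tendsto_im_BT μ hE

theorem ae_tendsto_sq (μ : Measure ℝ) [IsFiniteMeasure μ] :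
    ∀ᵐ E : ℝ, Tendsto (fun ε : ℝ => (ε : ℂ) * ∫ t : ℝ, (((t : ℂ) - (E + ε * I)) ^ 2)⁻¹ ∂μ)
      (𝓝[>] 0) (𝓝 0) := by
  filter_upwards [ae_tendsto_dev μ] with E hE using tendsto_sq μ hE

theorem ae_tendsto_BT_sub (μ : Measure ℝ) [IsFiniteMeasure μ] :
    ∀ᵐ E : ℝ, ∀ M : ℝ, 0 < M →
      Tendsto (fun ε : ℝ => BT μ E ε - BT μ E (M * ε)) (𝓝[>] 0) (𝓝 0) := by
  filter_upwards [ae_tendsto_dev μ] with E hE M hM using tendsto_BT_sub μ hE hM

/-- `μ` is singular as soon as its density vanishes almost everywhere -/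
theorem singular_of_dens {μ : Measure ℝ} [IsFiniteMeasure μ] (h : ∀ᵐ E : ℝ, dens μ E = 0) :
    μ ⟂ₘ (volume : Measure ℝ) := by
  rw [← Measure.rnDeriv_eq_zero]
  filter_upwards [h, Measure.rnDeriv_lt_top μ (volume : Measure ℝ)] with E hE hlt
  rcases (ENNReal.toReal_eq_zero_iff _).1 hE with h1 | h1
  · exact h1
  · exact absurd h1 hlt.ne

end P365E
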